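import Vale.Agent.P281.H713.TZ.SFinD

open scoped Manifold ContDiff
open Vale.Agent.P281.H713 Vale.Agent.P281.H713.TZ.S

namespace Vale.Agent.Results.P281.AlbaneseFibres

/-- Campana's inequality `κ(X, K_X + Δ) ≥ κ(F, K_F + Δ_F) + κ(f | Δ)` for all fibrations of any
relative dimension `d ≥ 1`, with varying moduli, whose smooth fibres are of general type with
holomorphic maps to polarized tori: `f : X ⇢ Y` is a meromorphic map, holomorphic on the open subset
`Z` (embedded by `j`) of the compact manifold `X`, whose complement has codimension `≥ 2` (`Z = X`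
is allowed); over the complement of finitely many prime divisors `G ∈ 𝒢` of `Y` (containing the
discriminant), `f` is a smooth family of manifolds of dimension `d`, with holomorphic maps `α` (for
instance the Albanese maps) to polarized complex tori, with generically immersive Gauss map, with
bounded volumes, and whose image is in no hyperplane.  There is no condition on `f` over the divisors
`G`.

First part: the inequality with, in place of `κ(f | Δ)`, the number `kodF`, given by the meromorphic
pluricanonical forms of `Y` whose pull-backs to `X` are tensors with poles at most `m Δ`.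

Second part: `kodF` is at least `κ(Y, K_Y + Γ)` for all rational SNC boundaries `Γ` of `Y` such that
`f : (Z, Δ') → (Y, Γ)` is a morphism of orbifolds in codimension one (for instance `Γ = 0`, or `Γ`
reduced with `f⁻¹(Γ)` contained in the reduced part of `Δ'`), and at least Campana's infimum
`κ(f₀ | Δ₀)` if `Γ` is the orbifold base of a fibration linked to `f₀ : (X₀, Δ₀) → Y₀`, for instance
of a neat model of `f₀`, where `X = X₀`, `Δ = Δ₀`. -/
theorem result {n p d : ℕ} (hd : 0 < d) (hn : n = p + d) {E₀ V X Z Y F ι : Type}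
    [NormedAddCommGroup E₀] [NormedSpace ℂ E₀] [FiniteDimensional ℂ E₀]
    (hE₀ : Module.finrank ℂ E₀ = d)
    [NormedAddCommGroup V] [InnerProductSpace ℂ V] [FiniteDimensional ℂ V]
    [TopologicalSpace X] [T2Space X] [CompactSpace X] [ConnectedSpace X] [ChartedSpace (Cm n) X]
    [TopologicalSpace Z] [ChartedSpace (Cm n) Z]
    [TopologicalSpace Y] [T2Space Y] [ChartedSpace (Cm p) Y]
    [TopologicalSpace F] [ChartedSpace E₀ F] [IsManifold 𝓘(ℂ, E₀) ω F]
    (j : Z → X) (f : Z → Y) (𝒢 : Set (Set Y)) (Δ : Set X → ℝ) (Δ' : Set Z → ℝ)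
    (hf : Setup (Cm n) (Cm p) j f 𝒢 Δ Δ') {r : ℕ} {Q : (Fin r → ℝ) → (Fin r → ℝ) → ℝ}
    (U : ι → Set Y) (π : ι → Y → ((Fin r → ℝ) ≃L[ℝ] V)) (α : ι → Z → V)
    (hC : IsAlbaneseFamily (Cm n) (Cm p) d f (⋃₀ 𝒢) Q U π α) (ΔF : Set F → ℝ) :
    kodX E₀ ΔF + kodF n p Δ j f ≤ kodX (Cm n) Δ ∧
      KapLe (Cm n) (Cm p) f Δ' (kodF n p Δ j f) :=
  ⟨alb hd hn hE₀ ‹_› hf U π α hC ΔF, (alb' hd hn hE₀ ‹_› hf U π α hC ΔF).2.kapLe⟩

end Vale.Agent.Results.P281.AlbaneseFibres
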