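import Vale.Agent.P281.H713.TZ.SFinD

open Vale.Agent.P281.H713 Vale.Agent.P281.H713.TZ.S

namespace Vale.Agent.Results.P281.CurveFibres

/-- Campana's inequality `κ(X, K_X + Δ) ≥ κ(F, K_F + Δ|F) + κ(f | Δ)` for all fibrations of
relative dimension one, with varying moduli: `f : X ⇢ Y` is a meromorphic map, holomorphic on the
open subset `Z` (embedded by `j`) of the compact manifold `X`, whose complement has codimension
`≥ 2` (`Z = X` is allowed); over the complement of finitely many prime divisors `G ∈ 𝒢` of `Y`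
(containing the discriminant), `f` is a smooth family of curves of genus `≥ 2`, `1` or `0` (in the
last two cases the horizontal part of `Δ` is étale over the complement); `F` is a compact connected
curve immersed in a fibre over `Y ∖ ⋃ G`, for instance this fibre itself.  There is no condition on
`f` over the divisors `G`.

First part: the inequality with, in place of `κ(f | Δ)`, the number `kodF`, given by the meromorphic
pluricanonical forms of `Y` whose pull-backs to `X` are tensors with poles at most `m Δ`.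

Second part: `kodF` is at least `κ(Y, K_Y + Γ)` for all rational SNC boundaries `Γ` of `Y` such that
`f : (Z, Δ') → (Y, Γ)` is a morphism of orbifolds in codimension one (for instance `Γ = 0`, or `Γ`
reduced with `f⁻¹(Γ)` contained in the reduced part of `Δ'`), and at least Campana's infimum
`κ(f₀ | Δ₀)` if `Γ` is the orbifold base of a fibration linked to `f₀ : (X₀, Δ₀) → Y₀`, for instance
of a neat model of `f₀`, where `X = X₀`, `Δ = Δ₀`. -/
theorem result {n p : ℕ} (hn : n = p + 1) {E₀ X Z Y F : Type} [NormedAddCommGroup E₀]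
    [NormedSpace ℂ E₀] [FiniteDimensional ℂ E₀] (hE₀ : Module.finrank ℂ E₀ = 1)
    [TopologicalSpace X] [T2Space X] [CompactSpace X] [ConnectedSpace X] [ChartedSpace (Cm n) X]
    [TopologicalSpace Z] [ChartedSpace (Cm n) Z]
    [TopologicalSpace Y] [T2Space Y] [ChartedSpace (Cm p) Y]
    [TopologicalSpace F] [CompactSpace F] [ConnectedSpace F] [ChartedSpace E₀ F]
    (j : Z → X) (f : Z → Y) (𝒢 : Set (Set Y)) (Δ : Set X → ℝ) (Δ' : Set Z → ℝ)
    (hf : Setup (Cm n) (Cm p) j f 𝒢 Δ Δ') (hC : IsFamilyOfCurves (Cm n) (Cm p) f (⋃₀ 𝒢) Δ')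
    (i : F → Z) (hi : InFibre (Cm n) E₀ f 𝒢 i) :
    kodR (Cm n) E₀ i Δ' + kodF n p Δ j f ≤ kodX (Cm n) Δ ∧
      KapLe (Cm n) (Cm p) f Δ' (kodF n p Δ j f) :=
  ⟨one hn hE₀ hf hC hi, (one' hn hE₀ hf hC hi).2.kapLe⟩

end Vale.Agent.Results.P281.CurveFibres
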