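import Vale.Agent.P281.H723.FS.Main
import Vale.Agent.P281.H716.LC.Fin
import Vale.Agent.P281.H723.FS.FinML
import Vale.Agent.P281.H723.U.FinR
import Vale.Agent.P281.H342.NU.RF

open scoped Manifold ContDiff Topology
open Vale.Agent.P281 Vale.Agent.P281.FS

namespace Vale.Agent.Results.P281.GoodMinimalPairs

/-- Campana's inequality `κ(X, K_X + Δ) ≥ κ(F, K_F + Δ|_F) + κ(f | Δ)` for all meromorphic
fibrations `f : X ⇢ Y` of a compact Kähler manifold `X` (with Kähler metric `χ`) with a rational SNC
boundary `Δ` (coefficients `1` allowed: `(X, Δ)` is log canonical).  `f` is holomorphic on the open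
subset `Z` (embedded by `j`) of `X`, whose complement has codimension `≥ 2`, and `F` is a compact smooth
fibre of `f : Z → Y` (or, more generally, of its Stein factorization), contained in no component of
`Δ`.

`kodF` is denoted by `k` below; it is computed with the meromorphic pluricanonical forms of `Y` whose
pull-backs to `X` are tensors with poles at most `m Δ`, and `k ≥ κ(f | Δ)` by (C).

(A) `HasGood`: for some `Δ₀ ≤ Δ` (for instance, `Δ₀ = Δ`) and some `0 < t ≤ 1`,
`Δ₁ = Δ₀ + t (Δ - Δ₀)`, `m (K_X + Δ₀) = M + N` and `m' (K_X + Δ₁) = M' + N'`, where `M` and `M'` are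
generated by global sections (`S b` and `S' b` are the corresponding sections of `m (K_X + Δ₀)` and
`m' (K_X + Δ₁)`), and the components of the fixed divisors `N, N' ≥ 0` are locally smooth and each of
them is either vertical (the map given by `M + M'`, of rank `≥ ν` somewhere, has rank `< ν` on it) or
contracted (at each of its points it has a nonzero tangent vector killed by the differential of the
map given by `M + M'` and by a closed form `β ≥ 0`, which is positive on a dense set): `GoodFix`.  For
instance (`Δ₀ = Δ`, `M' = M`, `N' = N`): `K_X + Δ` is semiample (`N = 0`, `ν = 0`, `β = χ`), or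
`X → X'` is a log resolution of a good minimal model of the log canonical pair `(X, Δ)`, and `β` is
the pull-back of a Kähler metric of `X'`.  Moreover either the restrictions of the sections `S b`,
`S' b` to `F` have the same property (for some other `ν`, `β`; if `N = N' = 0`, this is automatic),
or the components of `N`, `N'` are transversal to `F` and covered by rational curves `C` contracted
by `M + M'` and `β` with `Δ · C < 2`: `RatFix`.

(B) `HasMori`: `m (K_X + Δ)` is numerically `m (θ - α) + N` with closed semipositive forms `θ`, of
maximal rank `ν < n`, and `α`, positive on dense subsets of `X` and `F`, and `N ≥ 0` vertical or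
contracted, and `Δ` has coefficients `< 1` or `θ` is the pull-back of a Fubini-Study form (for
instance, `X` is a log resolution of a log canonical pair with a Mori fibre space `X' → S`, `S` is
projective, `θ` is the pull-back of an ample class of `S`); moreover, the components of `N` are
transversal to `F`, and the restrictions to `F` have the same property, or the components of `N` are
covered by rational curves as in (A).  Then `κ(F, K_F + Δ|_F) = -∞` or `k = -∞`.

(C) `OrbLe`: `κ(Y, K_Y + Γ) ≤ k` if `Γ` is a rational SNC boundary of `Y` (for instance, `Γ = 0`)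
and `f : (Z, Δ|_Z) → (Y, Γ)` is a morphism of orbifolds in codimension one.  And `κ(f₀ | Δ) ≤ k` for
`f₀ : X → Y₀`, where `κ(f₀ | Δ)` is Campana's orbifold base dimension, the infimum of the
`κ(Y', K_{Y'} + B(f', Δ'))` for all `f' : (X', Δ') → Y'` linked to `(f₀, Δ)` by chains of commutative
squares, if `Y` is the base of one of them and `f : (Z, Δ|_Z) → (Y, B(f', Δ'))` is a morphism of
orbifolds in codimension one (this is the case if `f'` is a neat model of `f₀`: its exceptional
divisors are contracted by `X' → X`).

(D) `HasNum`: `m (K_X + Δ)` is numerically `m θ + N` with a closed semipositive form `θ` of maximal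
rank `ν` (for instance, `(X, Δ)` is a log resolution of a minimal model `X'`, and `θ` is the pull-back
of a semipositive form representing the numerical class of `K_{X'} + Δ'`), and `N ≥ 0` vertical or
contracted: then `ν ≥ a + k`, where `a` is the maximal rank of `θ` on `F`, or
`a = κ(F, K_F + Δ|_F)` if the condition on `F` of (B) holds: Campana's inequality with the numerical
dimension of `K_X + Δ` instead of its Kodaira dimension.

(E) `HasNef`: `m (K_X + Δ)` is numerically `m θ + N`, where `θ` is nef (no semipositive representative
is needed) and `N ≥ 0` is contracted (for instance, `N = 0` and `β = χ`: `K_X + Δ` is nef; or `(X, Δ)` is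
a log resolution of a minimal model), and `ν` is the numerical dimension of `θ`: then `ν ≥ a + k`, where
`a` is the numerical dimension of the restriction of `θ` to the fibre `F` (computed with `β`), or
`a = κ(F, K_F + Δ|_F)` if the condition on `F` of (B) holds, with contracted components (for instance,
if `N = 0`). -/
theorem result {n p d : ℕ} (hn : n = p + d) {X Z Y F : Type}
    [TopologicalSpace X] [T2Space X] [CompactSpace X] [ConnectedSpace X] [Mfd n X]
    [TopologicalSpace Z] [Mfd n Z]
    [TopologicalSpace Y] [T2Space Y] [ConnectedSpace Y] [Mfd p Y]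
    [TopologicalSpace F] [T2Space F] [CompactSpace F] [ConnectedSpace F] [Mfd d F]
    (χ : Form n X) (hχ : IsKahler χ) (Δ : Set X → ℝ) (j : Z → X) (f : Z → Y) (i : F → Z)
    (hi : Setup (Cm n) (Cm p) (Cm d) Δ j f i) :
    (HasGood n d Δ (fun t => j (i t)) →
      kodR (Cm n) (Cm d) (fun t => j (i t)) Δ + kodF n p Δ j f ≤ kodX (Cm n) Δ) ∧
    (HasMori n d Δ (fun t => j (i t)) →
      kodR (Cm n) (Cm d) (fun t => j (i t)) Δ + kodF n p Δ j f = ⊥) ∧
    OrbLe (Cm n) (Cm p) Δ j f (kodF n p Δ j f) ∧
    (∀ ν a, HasNum n d Δ (fun t => j (i t)) ν a → a + kodF n p Δ j f ≤ ν) ∧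
    ∀ (ν : ℕ) a, HasNef n d χ Δ (fun t => j (i t)) ν a → a + kodF n p Δ j f ≤ ν :=
  final_of H716.LC.mainPartC FS.mainPartML H723.U.numPart H723.U.numPartR H342.NU.numNef
    H342.NU.numNefR hn χ hχ Δ j f i hi

end Vale.Agent.Results.P281.GoodMinimalPairs
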