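import Vale.Agent.P281.H713.TZ.SFinD

open scoped Manifold ContDiff
open Vale.Agent.P281.H713 Vale.Agent.P281.H713.TZ.S

namespace Vale.Agent.Results.P281.PeriodFibres

/-- Campana's inequality `κ(X, K_X + Δ) ≥ κ(F, K_F + Δ_F) + κ(f | Δ)` for all fibrations of any
relative dimension `d`, with varying moduli, whose smooth fibres carry pluricanonical forms
controlled by periods of complex tori and of Hodge structures of K3 type.  `f : X ⇢ Y` is a
meromorphic map, holomorphic on the open subset `Z` (embedded by `j`) of the compact manifold `X`,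
whose complement has codimension `≥ 2` (`Z = X` is allowed); over the complement of finitely many
prime divisors `G ∈ 𝒢` of `Y` (containing the discriminant), `f` is a smooth family of manifolds,
with `N`-canonical forms `η` with poles `≤ N Δ` on the fibres, which the monodromy permutes up to
the factor given by the change of periods and whose norms are bounded by those of the periods, and
which map the fibres to images of dimension `≥ r` (`r = 0` for fibres of Kodaira dimension `0`); `F`
is any manifold with `κ(F, K_F + Δ_F) ≤ r`.  There is no condition on `f` over the divisors `G`.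

First part: the inequality with, in place of `κ(f | Δ)`, the number `kodF`, given by the meromorphic
pluricanonical forms of `Y` whose pull-backs to `X` are tensors with poles at most `m Δ`.

Second part: `kodF` is at least `κ(Y, K_Y + Γ)` for all rational SNC boundaries `Γ` of `Y` such that
`f : (Z, Δ') → (Y, Γ)` is a morphism of orbifolds in codimension one (for instance `Γ = 0`, or `Γ`
reduced with `f⁻¹(Γ)` contained in the reduced part of `Δ'`), and at least Campana's infimum
`κ(f₀ | Δ₀)` if `Γ` is the orbifold base of a fibration linked to `f₀ : (X₀, Δ₀) → Y₀`, for instance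
of a neat model of `f₀`, where `X = X₀`, `Δ = Δ₀`. -/
theorem result {n p d : ℕ} (hn : n = p + d) {E₀ V X Z Y F ι : Type} [NormedAddCommGroup E₀]
    [NormedSpace ℂ E₀] [FiniteDimensional ℂ E₀]
    [NormedAddCommGroup V] [InnerProductSpace ℂ V] [FiniteDimensional ℂ V]
    [TopologicalSpace X] [T2Space X] [CompactSpace X] [ConnectedSpace X] [ChartedSpace (Cm n) X]
    [TopologicalSpace Z] [ChartedSpace (Cm n) Z]
    [TopologicalSpace Y] [T2Space Y] [ChartedSpace (Cm p) Y]
    [TopologicalSpace F] [ChartedSpace E₀ F] [IsManifold 𝓘(ℂ, E₀) ω F]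
    (j : Z → X) (f : Z → Y) (𝒢 : Set (Set Y)) (Δ : Set X → ℝ) (Δ' : Set Z → ℝ)
    (hf : Setup (Cm n) (Cm p) j f 𝒢 Δ Δ')
    {N q m b l r s : ℕ} (hN : 0 < N) {Q : (Fin q → ℝ) → (Fin q → ℝ) → ℝ}
    {B : Fin b → Matrix (Fin m) (Fin m) ℝ} {w : Fin b → Fin m → ℝ} {e : Fin b → ℕ}
    (κ : Set Z → ℕ) (hκ : ∀ D, (κ D : ℝ) ≤ N * Δ' D) (U : ι → Set Y)
    (π : ι → Y → ((Fin q → ℝ) ≃L[ℝ] V)) (P : ι → Y → Fin b → Fin m → ℂ)
    (η : ι → Fin l → Z → (Fin d → Cm n) → ℂ)
    (hC : HasPeriodForms (Cm n) (Cm p) f (⋃₀ 𝒢) r N κ Q s B w e U π P η)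
    (ΔF : Set F → ℝ) (hF : kodX E₀ ΔF ≤ (r : WithBot ℕ∞)) :
    kodX E₀ ΔF + kodF n p Δ j f ≤ kodX (Cm n) Δ ∧
      KapLe (Cm n) (Cm p) f Δ' (kodF n p Δ j f) :=
  ⟨periods hN hn ‹_› hf κ U π P η hC.old hκ ΔF hF,
    (periods' hN hn ‹_› hf κ U π P η hC.old hκ ΔF hF).2.kapLe⟩

end Vale.Agent.Results.P281.PeriodFibres
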